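/-
Integer powers of Frobenius on a perfect field of characteristic `p`, with the norm formula.
Shared API for S0351 (Part III): `Fr p m : K ≃+* K`, `m : ℤ`.
-/
import Mathlib

set_option autoImplicit false

namespace Crest.Agent.LT

open Filter Topology

section Alg

variable {K : Type*} [CommRing K] (p : ℕ) [ExpChar K p] [PerfectRing K p]

/-- `Fr p m` is the `m`-th power (`m : ℤ`) of the Frobenius automorphism `x ↦ x ^ p`. -/
noncomputable def Fr (m : ℤ) : K ≃+* K := (frobeniusEquiv K p : RingAut K) ^ m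

theorem Fr_zero (x : K) : Fr p 0 x = x := by
  simp [Fr]

theorem Fr_add (m m' : ℤ) (x : K) : Fr p (m + m') x = Fr p m (Fr p m' x) := by
  simp only [Fr, zpow_add]
  rfl

theorem Fr_natCast (n : ℕ) (x : K) : Fr p (n : ℤ) x = x ^ p ^ n := by
  induction n with
  | zero => simpa using Fr_zero p x
  | succ n ih =>
    have h1 : ((n + 1 : ℕ) : ℤ) = 1 + (n : ℤ) := by push_cast; ring
    rw [h1, Fr_add, ih]
    have h2 : Fr p 1 (x ^ p ^ n) = (x ^ p ^ n) ^ p := by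
      simp only [Fr, zpow_one]
      rfl
    rw [h2, ← pow_mul, pow_succ]

theorem Fr_one (x : K) : Fr p 1 x = x ^ p := by
  simpa using Fr_natCast p 1 x

theorem Fr_add_natCast (m : ℤ) (n : ℕ) (x : K) : Fr p (m + n) x = Fr p m x ^ p ^ n := by
  rw [add_comm, Fr_add, Fr_natCast]

theorem Fr_neg_Fr (m : ℤ) (x : K) : Fr p (-m) (Fr p m x) = x := by
  rw [← Fr_add]; simpa using Fr_zero p x

theorem Fr_Fr_neg (m : ℤ) (x : K) : Fr p m (Fr p (-m) x) = x := by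
  rw [← Fr_add]; simpa using Fr_zero p x

end Alg

section Norm

variable {K : Type*} [NormedField K] (p : ℕ) [hp : Fact p.Prime] [ExpChar K p] [PerfectRing K p]

omit hp in
theorem norm_Fr_add_natCast (m : ℤ) (n : ℕ) (x : K) : ‖Fr p (m + n) x‖ = ‖Fr p m x‖ ^ p ^ n := by
  rw [Fr_add_natCast, norm_pow]

theorem norm_Fr (m : ℤ) (x : K) : ‖Fr p m x‖ = ‖x‖ ^ ((p : ℝ) ^ m) := by
  have hp0 : (0 : ℝ) < p := by exact_mod_cast hp.out.pos
  obtain ⟨n, rfl | rfl⟩ := m.eq_nat_or_neg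
  · rw [Fr_natCast, norm_pow, zpow_natCast, ← Nat.cast_pow, Real.rpow_natCast]
  · have h1 := norm_Fr_add_natCast p (-(n : ℤ)) n x
    rw [neg_add_cancel, Fr_zero] at h1
    rw [zpow_neg, zpow_natCast, h1, ← Nat.cast_pow]
    have hpn : (p ^ n : ℕ) ≠ 0 := pow_ne_zero _ hp.out.ne_zero
    rw [Real.pow_rpow_inv_natCast (norm_nonneg _) hpn]

theorem norm_Fr_lt_one {m : ℤ} {x : K} (hx : ‖x‖ < 1) : ‖Fr p m x‖ < 1 := by
  have hp0 : (0 : ℝ) < p := by exact_mod_cast hp.out.pos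
  rw [norm_Fr]
  exact Real.rpow_lt_one (norm_nonneg _) hx (zpow_pos hp0 _)

theorem norm_Fr_le_one {m : ℤ} {x : K} (hx : ‖x‖ ≤ 1) : ‖Fr p m x‖ ≤ 1 := by
  have hp0 : (0 : ℝ) < p := by exact_mod_cast hp.out.pos
  rw [norm_Fr]
  exact Real.rpow_le_one (norm_nonneg _) hx (zpow_pos hp0 _).le

theorem norm_Fr_le_norm_Fr {m : ℤ} {x y : K} (hxy : ‖x‖ ≤ ‖y‖) : ‖Fr p m x‖ ≤ ‖Fr p m y‖ := by
  have hp0 : (0 : ℝ) < p := by exact_mod_cast hp.out.pos
  rw [norm_Fr, norm_Fr]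
  exact Real.rpow_le_rpow (norm_nonneg _) hxy (zpow_pos hp0 _).le

theorem norm_Fr_lt_norm_Fr {m : ℤ} {x y : K} (hxy : ‖x‖ < ‖y‖) : ‖Fr p m x‖ < ‖Fr p m y‖ := by
  have hp0 : (0 : ℝ) < p := by exact_mod_cast hp.out.pos
  rw [norm_Fr, norm_Fr]
  exact Real.rpow_lt_rpow (norm_nonneg _) hxy (zpow_pos hp0 _)

end Norm

end Crest.Agent.LT
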