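/-
B2, generic part: coefficient ideals, sums of homomorphisms, rigidity, the Drinfeld lift.
-/
import Crest.Agent.Lib.LT.Frob

set_option autoImplicit false

namespace Crest.Agent.LT

open Crest.LubinTate

section generic

variable {R S : Type*} [CommRing R] [CommRing S] {τ : Type*}

/-- All coefficients lie in `J`. -/
def CI (J : Ideal R) (f : MvPowerSeries τ R) : Prop := ∀ e, MvPowerSeries.coeff e f ∈ J

lemma CI.mul {J K : Ideal R} {f g : MvPowerSeries τ R} (hf : CI J f) (hg : CI K g) :
    CI (J * K) (f * g) := by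
  classical
  intro e
  rw [MvPowerSeries.coeff_mul]
  exact Ideal.sum_mem _ fun x _ => Ideal.mul_mem_mul (hf _) (hg _)

lemma CI.pow {J : Ideal R} {f : MvPowerSeries τ R} (hf : CI J f) (d : ℕ) : CI (J ^ d) (f ^ d) := by
  induction d with
  | zero => intro e; simp
  | succ d ih => rw [pow_succ, pow_succ]; exact ih.mul hf

lemma CI.mono {J K : Ideal R} {f : MvPowerSeries τ R} (hf : CI J f) (h : J ≤ K) : CI K f :=
  fun e => h (hf e)

lemma cI_of_map_eq_zero (r : R →+* S) {f : MvPowerSeries τ R} (h : MvPowerSeries.map r f = 0) :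
    CI (RingHom.ker r) f := by
  intro e
  have := congrArg (MvPowerSeries.coeff e) h
  simpa using this

lemma eq_zero_of_CI_bot {f : MvPowerSeries τ R} (h : CI (⊥ : Ideal R) f) : f = 0 := by
  ext e
  simpa using h e

/-- `[p]` raises the level: if `e` has coefficients in `𝔪^i`, `i ≥ 1`, then `[p](e)` has coefficients
in `𝔪^(i+1)`. -/
lemma CI.subst_mulSeries (G : FormalGroup R) {p : ℕ} {m : Ideal R} (hp : (p : R) ∈ m) {i : ℕ}
    (hi : 1 ≤ i) {e : MvPowerSeries τ R} (he : PowerSeries.HasSubst e) (hce : CI (m ^ i) e) :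
    CI (m ^ (i + 1)) (PowerSeries.subst e (mulSeries G p)) := by
  intro d
  rw [PowerSeries.coeff_subst he]
  apply finsum_induction (· ∈ m ^ (i + 1)) (zero_mem _) (fun _ _ => add_mem)
  intro j
  rcases j with _ | j
  · have : PowerSeries.coeff 0 (mulSeries G p) = 0 := by
      rw [PowerSeries.coeff_zero_eq_constantCoeff_apply, constantCoeff_mulSeries]
    rw [this, zero_smul]
    exact zero_mem _
  rcases j with _ | j
  · rw [smul_eq_mul, coeff_one_mulSeries, zero_add, pow_one, pow_succ, mul_comm (p : R)]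
    exact Ideal.mul_mem_mul (hce d) hp
  · rw [smul_eq_mul]
    apply Ideal.mul_mem_left
    have h2 : CI (m ^ (i * (j + 2))) (e ^ (j + 2)) := by
      rw [pow_mul]
      exact hce.pow _
    refine Ideal.pow_le_pow_right ?_ (h2 d)
    nlinarith

/-! ### Sums of homomorphisms -/

variable {F G : FormalGroup R}

theorem isFGHom_fgAdd [G.IsComm] {f f' : PowerSeries R} (h : IsFGHom F G f) (h' : IsFGHom F G f') :
    IsFGHom F G (fgAdd G (f : MvPowerSeries Unit R) (f' : MvPowerSeries Unit R)) := by
  have hf := hasSubst_of_cc h.1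
  have hf' := hasSubst_of_cc h'.1
  apply Crest.LubinTate.IsFGHom.of_apply (constantCoeff_fgAdd_of G h.1 h'.1)
  have hc := hasSubst_fgAdd F (hasSubst_X_i (R := R) (0 : Fin 2)) (hasSubst_X_i (R := R) (1 : Fin 2))
  rw [psubst_fgAdd G hf hf' hc, psubst_fgAdd G hf hf' (hasSubst_X_i 0),
    psubst_fgAdd G hf hf' (hasSubst_X_i 1),
    h.apply (hasSubst_X_i 0) (hasSubst_X_i 1), h'.apply (hasSubst_X_i 0) (hasSubst_X_i 1)]
  let x0 : G.Point (Fin 2) := ⟨_, hasSubst_psubst h.1 (hasSubst_X_i 0)⟩
  let x1 : G.Point (Fin 2) := ⟨_, hasSubst_psubst h.1 (hasSubst_X_i 1)⟩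
  let y0 : G.Point (Fin 2) := ⟨_, hasSubst_psubst h'.1 (hasSubst_X_i 0)⟩
  let y1 : G.Point (Fin 2) := ⟨_, hasSubst_psubst h'.1 (hasSubst_X_i 1)⟩
  exact congrArg Subtype.val (add_add_add_comm x0 x1 y0 y1)

/-- the inverse of a point is substitution in `fgInv`. -/
lemma isFGHom_fgInv (G : FormalGroup R) [G.IsComm] : IsFGHom G G (fgInv G) := by
  apply Crest.LubinTate.IsFGHom.of_apply (constantCoeff_fgInv G)
  let x0 : G.Point (Fin 2) := ⟨MvPowerSeries.X 0, hasSubst_X_i 0⟩
  let x1 : G.Point (Fin 2) := ⟨MvPowerSeries.X 1, hasSubst_X_i 1⟩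
  exact congrArg Subtype.val (neg_add x0 x1)

/-- Base change on points. -/
noncomputable def pointMap (F : FormalGroup R) (φ : R →+* S) :
    F.Point τ →+ (F.map φ).Point τ where
  toFun x := ⟨MvPowerSeries.map φ x.val, by
    have := x.prop
    rw [PowerSeries.HasSubst] at this ⊢
    have h2 := this.map φ
    convert h2 using 1
    exact MvPowerSeries.constantCoeff_map φ _⟩
  map_zero' := Subtype.ext (by
    show MvPowerSeries.map φ (0 : MvPowerSeries τ R) = 0
    simp)
  map_add' x y := Subtype.ext (map_fgAdd F φ x.prop y.prop)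

@[simp] lemma pointMap_val (F : FormalGroup R) (φ : R →+* S) (x : F.Point τ) :
    (pointMap F φ x).val = MvPowerSeries.map φ x.val := rfl

/-! ### Rigidity -/

theorem rigidity {C : Type*} [CommRing C] (r : R →+* C) {G : FormalGroup R} [G.IsComm] {p q : ℕ}
    (hq : 1 ≤ q) (hp : (p : R) ∈ RingHom.ker r)
    (hG : PowerSeries.map r (mulSeries G p) = PowerSeries.X ^ q)
    (hsep : ∀ x, (∀ i, x ∈ (RingHom.ker r) ^ i) → x = 0) {D : PowerSeries R}
    (hD : IsFGHom G G D) (hDr : PowerSeries.map r D = PowerSeries.X) : D = PowerSeries.X := by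
  set m := RingHom.ker r with hm
  have hX : PowerSeries.HasSubst (PowerSeries.X (R := R)) :=
    PowerSeries.HasSubst.of_constantCoeff_zero' PowerSeries.constantCoeff_X
  have hDs := hasSubst_of_cc hD.1
  set e : PowerSeries R := fgAdd G (D : MvPowerSeries Unit R) (fgInv G : MvPowerSeries Unit R) with he
  have hehom : IsFGHom G G e := isFGHom_fgAdd hD (isFGHom_fgInv G)
  have hes := hasSubst_of_cc hehom.1
  have hbase : CI m (e : MvPowerSeries Unit R) := by
    apply cI_of_map_eq_zero
    rw [he, map_fgAdd G r hDs (hasSubst_fgInv G)]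
    have : MvPowerSeries.map r (D : MvPowerSeries Unit R) =
        MvPowerSeries.map r (PowerSeries.X (R := R) : MvPowerSeries Unit R) := by
      have h1 : PowerSeries.map r (PowerSeries.X (R := R)) = PowerSeries.X := PowerSeries.map_X r
      exact hDr.trans h1.symm
    rw [this, ← map_fgAdd G r hX (hasSubst_fgInv G), fgAdd_X_inv, map_zero]
  have hstep : ∀ i, 1 ≤ i → CI (m ^ i) (e : MvPowerSeries Unit R) →
      CI (m ^ (i + 1)) (e : MvPowerSeries Unit R) := by
    intro i hi hc
    have hcc : ∀ j, PowerSeries.coeff j e ∈ m ^ i := fun j => hc _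
    have hr : ∀ k, PowerSeries.coeff k e ∈ m ^ (i + 1) := by
      intro k
      have h1 := CI.subst_mulSeries (τ := Unit) G (p := p) hp hi hes hc
      have h2 : PowerSeries.coeff (q * k) (cmp e (mulSeries G p)) ∈ m ^ (i + 1) := by
        rw [hehom.cmp_mulSeries p]
        exact h1 _
      rw [coeff_cmp_eq_sum (constantCoeff_mulSeries G p)] at h2
      have hk : k ∈ Finset.range (q * k + 1) := by
        rw [Finset.mem_range]
        nlinarith
      have h3 : ∑ d ∈ Finset.range (q * k + 1),
          (PowerSeries.coeff d e * PowerSeries.coeff (q * k) (mulSeries G p ^ d) -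
            if d = k then PowerSeries.coeff d e else 0) ∈ m ^ (i + 1) := by
        refine Ideal.sum_mem _ fun d _ => ?_
        have h4 : PowerSeries.coeff (q * k) (mulSeries G p ^ d) -
            (if d = k then 1 else 0) ∈ m := by
          rw [hm, RingHom.mem_ker, map_sub, ← PowerSeries.coeff_map, map_pow, hG, ← pow_mul,
            PowerSeries.coeff_X_pow]
          have : (q * k = q * d) ↔ (d = k) := by
            constructor
            · intro h
              exact (Nat.eq_of_mul_eq_mul_left (by omega) h).symm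
            · rintro rfl; rfl
          by_cases hdk : d = k
          · simp [hdk]
          · have h5 : ¬ (q * k = q * d) := fun h => hdk (this.1 h)
            simp [hdk, h5]
        have h6 : PowerSeries.coeff d e * PowerSeries.coeff (q * k) (mulSeries G p ^ d) -
            (if d = k then PowerSeries.coeff d e else 0) =
            PowerSeries.coeff d e * (PowerSeries.coeff (q * k) (mulSeries G p ^ d) -
              (if d = k then 1 else 0)) := by
          split_ifs <;> ring
        rw [h6, pow_succ]
        exact Ideal.mul_mem_mul (hcc d) h4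
      rw [Finset.sum_sub_distrib, Finset.sum_ite_eq' , if_pos hk] at h3
      have := sub_mem h2 h3
      simpa using this
    exact fun d => by
      have : d = Finsupp.single () (d ()) := Finsupp.ext fun _ => by simp
      rw [this]
      exact hr _
  have hall : ∀ i, CI (m ^ (i + 1)) (e : MvPowerSeries Unit R) := by
    intro i
    induction i with
    | zero => simpa using hbase
    | succ i ih => exact hstep _ (by omega) ih
  have he0 : e = 0 := by
    ext j
    simp only [map_zero]
    apply hsep
    intro i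
    have := hall i (Finsupp.single () j)
    exact Ideal.pow_le_pow_right (by omega) this
  -- from `D + ι = 0` deduce `D = X`
  let xD : G.Point Unit := ⟨D, hDs⟩
  let xX : G.Point Unit := ptX G
  let xI : G.Point Unit := ⟨fgInv G, hasSubst_fgInv G⟩
  have h1 : xD + xI = 0 := Subtype.ext he0
  have h2 : xX + xI = 0 := Subtype.ext (fgAdd_X_inv G)
  have h3 : xD = xX := add_right_cancel (h1.trans h2.symm)
  exact congrArg Subtype.val h3

end generic

/-! ### The Drinfeld lift -/

section drinfeld

variable {p : ℕ} [Fact p.Prime] {k B : Type*} [CommRing k] [CharP k p] [CommRing B]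

/-- Coefficientwise lift through a surjection, preserving zero coefficients. -/
lemma exists_lift_series {A C : Type*} [CommRing A] [CommRing C] (r : A →+* C)
    (hr : Function.Surjective r) (f : PowerSeries C) :
    ∃ f' : PowerSeries A, PowerSeries.map r f' = f ∧
      ∀ i, PowerSeries.coeff i f = 0 → PowerSeries.coeff i f' = 0 := by
  classical
  refine ⟨PowerSeries.mk fun i =>
    if PowerSeries.coeff i f = 0 then 0 else Function.surjInv hr (PowerSeries.coeff i f), ?_, ?_⟩
  · ext i
    rw [PowerSeries.coeff_map, PowerSeries.coeff_mk]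
    split_ifs with h
    · rw [h, map_zero]
    · exact Function.surjInv_eq hr _
  · intro i hi
    rw [PowerSeries.coeff_mk, if_pos hi]

/-- **The Drinfeld lift.**  Let `G` be a law over `B` with reduction `Γ` along `r`, with nilpotent
kernel of level `c`, and let `g` be an endomorphism of `Γ` with `g ≡ X` modulo `X^(p^K (N+1))`, where
`[p^c]_Γ = X^(p^K)` and `Γ^(p^K) = Γ`.  Then `g` lifts to an endomorphism `g'` of `G` with
`g' ≡ X` modulo `X^N`. -/
theorem exists_drinfeld_lift (r : B →+* k) (hr : Function.Surjective r) (G : FormalGroup B)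
    [G.IsComm] (c K N : ℕ) (hfr : iterateFrobenius k p K = RingHom.id k)
    (hpc : mulSeries (G.map r) (p ^ c) = PowerSeries.X ^ (p ^ K))
    (hc : (RingHom.ker r) ^ c = ⊥) (hpm : (p : B) ∈ RingHom.ker r) {g : PowerSeries k}
    (hg : IsFGHom (G.map r) (G.map r) g) (hgM : CongX (p ^ K * (N + 1)) g) :
    ∃ g' : PowerSeries B, IsFGHom G G g' ∧ PowerSeries.map r g' = g ∧ CongX N g' := by
  set Γ := G.map r with hΓ
  have hX : PowerSeries.HasSubst (PowerSeries.X (R := k)) :=
    PowerSeries.HasSubst.of_constantCoeff_zero' PowerSeries.constantCoeff_X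
  have hXB : PowerSeries.HasSubst (PowerSeries.X (R := B)) :=
    PowerSeries.HasSubst.of_constantCoeff_zero' PowerSeries.constantCoeff_X
  have hgs := hasSubst_of_cc hg.1
  set M := p ^ K * (N + 1) with hM
  -- Step 1: `w = g - X`
  set w : PowerSeries k := fgAdd Γ (g : MvPowerSeries Unit k) (fgInv Γ : MvPowerSeries Unit k)
    with hw
  have hwhom : IsFGHom Γ Γ w := isFGHom_fgAdd hg (isFGHom_fgInv Γ)
  have hwdvd : (PowerSeries.X : PowerSeries k) ^ M ∣ w := by
    have h1 : (PowerSeries.X : PowerSeries k) ^ M ∣ g - PowerSeries.X := by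
      rw [PowerSeries.X_pow_dvd_iff]
      intro m hm
      rw [map_sub, hgM m hm, sub_self]
    have := fgAdd_congr_X_pow Γ hgs hX (hasSubst_fgInv Γ) (hasSubst_fgInv Γ) M h1 (by simp)
    rwa [fgAdd_X_inv, sub_zero] at this
  have hwc : ∀ m, m < M → PowerSeries.coeff m w = 0 := PowerSeries.X_pow_dvd_iff.1 hwdvd
  have hpK : 1 ≤ p ^ K := Nat.one_le_pow _ _ (Nat.pos_of_ne_zero (prime_ne_zero p))
  -- Step 2: factor through `X^(p^K)`
  obtain ⟨V, hwV, hVhom, hVc⟩ := hom_factor p hwhom K (by
    intro i hi
    apply hwc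
    have h1 : p ^ i < p ^ K := Nat.pow_lt_pow_right (Fact.out : p.Prime).one_lt hi
    calc p ^ i < p ^ K := h1
      _ ≤ M := by rw [hM]; exact Nat.le_mul_of_pos_right _ (by omega))
  rw [hfr, fg_map_id] at hVhom
  have hVs := hasSubst_of_cc hVhom.1
  -- Step 3: lift `V`
  obtain ⟨u, huV, hu0⟩ := exists_lift_series r hr V
  have huc : PowerSeries.constantCoeff u = 0 := by
    rw [← PowerSeries.coeff_zero_eq_constantCoeff_apply]
    exact hu0 0 (by rw [PowerSeries.coeff_zero_eq_constantCoeff_apply]; exact hVhom.1)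
  have hus := hasSubst_of_cc huc
  have hucN : ∀ m, m < N + 1 → PowerSeries.coeff m u = 0 := by
    intro m hm
    apply hu0
    rw [hVc]
    apply hwc
    exact Nat.mul_lt_mul_of_pos_left hm (by omega)
  -- Step 4: `D = [p^c] ∘ u` is an endomorphism
  set D : PowerSeries B := cmp (mulSeries G (p ^ c)) u with hD
  have hDc : PowerSeries.constantCoeff D = 0 := constantCoeff_cmp (constantCoeff_mulSeries _ _) huc
  have hDs := hasSubst_of_cc hDc
  have hDhom : IsFGHom G G D := by
    apply Crest.LubinTate.IsFGHom.of_apply hDc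
    have hs01 := hasSubst_fgAdd G (hasSubst_X_i (R := B) (0 : Fin 2)) (hasSubst_X_i (R := B) (1 : Fin 2))
    let A : G.Point (Fin 2) := ⟨PowerSeries.subst (fgAdd G (MvPowerSeries.X 0) (MvPowerSeries.X 1)) u,
      hasSubst_psubst huc hs01⟩
    let B₀ : G.Point (Fin 2) := ⟨PowerSeries.subst (MvPowerSeries.X 0 : MvPowerSeries (Fin 2) B) u,
      hasSubst_psubst huc (hasSubst_X_i 0)⟩
    let B₁ : G.Point (Fin 2) := ⟨PowerSeries.subst (MvPowerSeries.X 1 : MvPowerSeries (Fin 2) B) u,
      hasSubst_psubst huc (hasSubst_X_i 1)⟩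
    set E : G.Point (Fin 2) := A - (B₀ + B₁) with hE
    have hEr : CI (RingHom.ker r) E.val := by
      apply cI_of_map_eq_zero
      have h1 : pointMap G r E = 0 := by
        rw [hE, map_sub, map_add, sub_eq_zero]
        apply Subtype.ext
        show MvPowerSeries.map r _ = fgAdd (G.map r) (MvPowerSeries.map r _) (MvPowerSeries.map r _)
        have e0 : MvPowerSeries.map r (PowerSeries.subst (MvPowerSeries.X 0 : MvPowerSeries (Fin 2) B) u)
            = PowerSeries.subst (MvPowerSeries.X 0 : MvPowerSeries (Fin 2) k) V := by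
          rw [PowerSeries.map_subst (hasSubst_X_i 0), MvPowerSeries.map_X, huV]
        have e1 : MvPowerSeries.map r (PowerSeries.subst (MvPowerSeries.X 1 : MvPowerSeries (Fin 2) B) u)
            = PowerSeries.subst (MvPowerSeries.X 1 : MvPowerSeries (Fin 2) k) V := by
          rw [PowerSeries.map_subst (hasSubst_X_i 1), MvPowerSeries.map_X, huV]
        rw [e0, e1, PowerSeries.map_subst hs01, huV, map_fgAdd G r (hasSubst_X_i 0) (hasSubst_X_i 1),
          MvPowerSeries.map_X, MvPowerSeries.map_X]
        exact hVhom.apply (hasSubst_X_i 0) (hasSubst_X_i 1)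
      exact congrArg Subtype.val h1
    have hEp : ∀ j : ℕ, CI ((RingHom.ker r) ^ (j + 1)) ((p ^ j • E).val) := by
      intro j
      induction j with
      | zero => simpa using hEr
      | succ j ih =>
        have h1 := CI.subst_mulSeries G hpm (i := j + 1) (by omega) (p ^ j • E).prop ih
        rw [subst_mulSeries, ← mul_smul, ← pow_succ'] at h1
        exact h1
    have hE0 : p ^ c • E = 0 := by
      apply Subtype.ext
      apply eq_zero_of_CI_bot
      rw [← hc]
      exact (hEp c).mono (Ideal.pow_le_pow_right (by omega))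
    have hE1 : p ^ c • A = p ^ c • B₀ + p ^ c • B₁ := by
      rw [hE, smul_sub, sub_eq_zero, smul_add] at hE0
      exact hE0
    have hv := congrArg Subtype.val hE1
    have he : ∀ (c' : MvPowerSeries (Fin 2) B) (hc' : PowerSeries.HasSubst c') (x : G.Point (Fin 2)),
        x.val = PowerSeries.subst c' u → PowerSeries.subst c' D = (p ^ c • x).val := by
      intro c' hc' x hx
      rw [hD, cmp, PowerSeries.subst_comp_subst_apply hus hc', ← hx, subst_mulSeries]
    rw [he _ hs01 A rfl, he _ (hasSubst_X_i 0) B₀ rfl, he _ (hasSubst_X_i 1) B₁ rfl]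
    exact hv
  -- Step 5: `g' = X + D`
  refine ⟨fgAdd G (PowerSeries.X (R := B) : MvPowerSeries Unit B) (D : MvPowerSeries Unit B),
    isFGHom_fgAdd (isFGHom_X G) hDhom, ?_, ?_⟩
  · have hrD : PowerSeries.map r D = w := by
      rw [hD, map_cmp r huc, huV, ← mulSeries_map, (hVhom.cmp_mulSeries _).symm, hpc]
      exact hwV.symm
    have h1 : PowerSeries.map r (fgAdd G (PowerSeries.X (R := B) : MvPowerSeries Unit B)
        (D : MvPowerSeries Unit B)) = fgAdd Γ (PowerSeries.X (R := k) : MvPowerSeries Unit k)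
        (w : MvPowerSeries Unit k) := by
      have := map_fgAdd G r hXB hDs
      refine this.trans ?_
      congr 1
      · exact PowerSeries.map_X r
    rw [h1]
    let xg : Γ.Point Unit := ⟨g, hgs⟩
    let xX : Γ.Point Unit := ptX Γ
    let xI : Γ.Point Unit := ⟨fgInv Γ, hasSubst_fgInv Γ⟩
    have h2 : xX + xI = 0 := Subtype.ext (fgAdd_X_inv Γ)
    have h3 : xX + (xg + xI) = xg := by
      rw [add_left_comm, h2, add_zero]
    exact congrArg Subtype.val h3
  · have hdvdu : (PowerSeries.X : PowerSeries B) ^ (N + 1) ∣ u := PowerSeries.X_pow_dvd_iff.2 hucN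
    have hdvdD : (PowerSeries.X : PowerSeries B) ^ (N + 1) ∣ D := by
      have := psubst_congr_X_pow hus (PowerSeries.HasSubst.zero (R := B)) (N + 1)
        (by simpa using hdvdu) (mulSeries G (p ^ c))
      rwa [psubst_zero (constantCoeff_mulSeries _ _), sub_zero] at this
    have h5 := fgAdd_congr_X_pow G hXB hXB hDs (PowerSeries.HasSubst.zero (R := B)) (N + 1) (by simp)
      (by simpa using hdvdD)
    rw [fgAdd_zero G hXB, PowerSeries.X_pow_dvd_iff] at h5
    intro i hi
    have := h5 i (by omega)
    rwa [map_sub, sub_eq_zero] at this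

end drinfeld

end Crest.Agent.LT
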