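/-
B2: consequences of universality (BLUEPRINT §B2): test rings, unique hom lift, stabilizer maps,
composition, deep action, transport of universality.
-/
import Crest.Agent.Lib.LT.UnivA
import Crest.Agent.Lib.LT.E0

set_option autoImplicit false

namespace Crest.Agent.LT

open Crest.LubinTate

/-- A nilpotent ideal is adically complete. -/
lemma isAdicComplete_of_pow_eq_bot {A : Type*} [CommRing A] (I : Ideal A) (c : ℕ) (h : I ^ c = ⊥) :
    IsAdicComplete I A := by
  have hzero : ∀ n, c ≤ n → (I ^ n • ⊤ : Submodule A A) = ⊥ := by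
    intro n hn
    have : I ^ n ≤ ⊥ := h ▸ Ideal.pow_le_pow_right hn
    simp [le_bot_iff.1 this]
  refine { haus' := fun x hx => ?_, prec' := fun f hf => ?_ }
  · have := hx c
    rw [hzero c le_rfl, SModEq.zero] at this
    simpa using this
  · refine ⟨f c, fun m => ?_⟩
    rcases le_total m c with hm | hm
    · exact hf hm
    · have := hf hm
      rw [hzero c le_rfl] at this
      have h2 := SModEq.bot.1 this
      rw [h2]

/-- The test rings of the universal property. -/
structure IsTest (p : ℕ) [Fact p.Prime] (n : ℕ) (B : Type) [CommRing B] [IsLocalRing B]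
    [IsNoetherianRing B] [Algebra (WittVector p (GaloisField p n)) B]
    (r : B →+* GaloisField p n) : Prop where
  complete : IsAdicComplete (IsLocalRing.maximalIdeal B) B
  surj : Function.Surjective r
  ker_eq : RingHom.ker r = IsLocalRing.maximalIdeal B
  alg : r.comp (algebraMap (WittVector p (GaloisField p n)) B) = WittVector.constantCoeff

lemma pmap_map {A C D : Type*} [CommRing A] [CommRing C] [CommRing D] (φ : A →+* C) (ψ : C →+* D)
    (f : PowerSeries A) : PowerSeries.map ψ (PowerSeries.map φ f) = PowerSeries.map (ψ.comp φ) f := by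
  ext i
  simp

variable {p : ℕ} [Fact p.Prime] {n : ℕ}

local notation "k" => GaloisField p n
local notation "WW" => WittVector p (GaloisField p n)
local notation "E" => LTRing p n
local notation "res" => LTRing.residue p n

section test

variable {B : Type} [CommRing B] [IsLocalRing B] [IsNoetherianRing B] [Algebra (WittVector p (GaloisField p n)) B] {r : B →+* GaloisField p n}

lemma IsTest.isUnit_of_map (ht : IsTest p n B r) {c : B} (h : IsUnit (r c)) : IsUnit c := by
  by_contra hc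
  have h1 : c ∈ IsLocalRing.maximalIdeal B := hc
  rw [← ht.ker_eq, RingHom.mem_ker] at h1
  rw [h1] at h
  exact not_isUnit_zero h

instance isLocalRing_quot_pow (c : ℕ) :
    IsLocalRing (B ⧸ (IsLocalRing.maximalIdeal B) ^ (c + 1)) := by
  have hne : (IsLocalRing.maximalIdeal B) ^ (c + 1) ≠ ⊤ := by
    intro h
    have : (IsLocalRing.maximalIdeal B) ^ (c + 1) ≤ IsLocalRing.maximalIdeal B :=
      Ideal.pow_le_self (by omega)
    rw [h] at this
    exact (IsLocalRing.maximalIdeal.isMaximal B).ne_top (top_le_iff.1 this)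
  have : Nontrivial (B ⧸ (IsLocalRing.maximalIdeal B) ^ (c + 1)) :=
    Ideal.Quotient.nontrivial_iff.2 hne
  exact IsLocalRing.of_surjective' (Ideal.Quotient.mk _) Ideal.Quotient.mk_surjective

/-- The residue map of `B / 𝔪^(c+1)`. -/
noncomputable def resQ (ht : IsTest p n B r) (c : ℕ) :
    (B ⧸ (IsLocalRing.maximalIdeal B) ^ (c + 1)) →+* k :=
  Ideal.Quotient.lift _ r fun a ha => by
    have : (IsLocalRing.maximalIdeal B) ^ (c + 1) ≤ IsLocalRing.maximalIdeal B :=
      Ideal.pow_le_self (by omega)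
    have h2 := this ha
    rwa [← ht.ker_eq, RingHom.mem_ker] at h2

@[simp] lemma resQ_mk (ht : IsTest p n B r) (c : ℕ) (a : B) :
    resQ ht c (Ideal.Quotient.mk _ a) = r a := rfl

lemma resQ_comp (ht : IsTest p n B r) (c : ℕ) :
    (resQ ht c).comp (Ideal.Quotient.mk _) = r := rfl

lemma ker_resQ (ht : IsTest p n B r) (c : ℕ) :
    RingHom.ker (resQ ht c) = (IsLocalRing.maximalIdeal B).map (Ideal.Quotient.mk _) := by
  ext x
  obtain ⟨a, rfl⟩ := Ideal.Quotient.mk_surjective x
  rw [RingHom.mem_ker, resQ_mk]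
  constructor
  · intro h
    apply Ideal.mem_map_of_mem
    rwa [← ht.ker_eq, RingHom.mem_ker]
  · intro h
    rw [Ideal.mem_map_iff_of_surjective _ Ideal.Quotient.mk_surjective] at h
    obtain ⟨b, hb, hab⟩ := h
    have h2 := Ideal.Quotient.eq.1 hab
    have h3 : (IsLocalRing.maximalIdeal B) ^ (c + 1) ≤ IsLocalRing.maximalIdeal B :=
      Ideal.pow_le_self (by omega)
    have h4 := (IsLocalRing.maximalIdeal B).sub_mem hb (h3 h2)
    simp only [sub_sub_cancel] at h4
    rwa [← ht.ker_eq, RingHom.mem_ker] at h4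

lemma ker_resQ_pow (ht : IsTest p n B r) (c : ℕ) :
    RingHom.ker (resQ ht c) ^ (c + 1) = ⊥ := by
  rw [ker_resQ, ← Ideal.map_pow, Ideal.map_quotient_self]

lemma IsTest.quot (ht : IsTest p n B r) (c : ℕ) :
    IsTest p n (B ⧸ (IsLocalRing.maximalIdeal B) ^ (c + 1)) (resQ ht c) := by
  have hs : Function.Surjective (resQ ht c) := fun x => by
    obtain ⟨a, ha⟩ := ht.surj x
    exact ⟨Ideal.Quotient.mk _ a, ha⟩
  have hk : RingHom.ker (resQ ht c) =
      IsLocalRing.maximalIdeal (B ⧸ (IsLocalRing.maximalIdeal B) ^ (c + 1)) :=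
    IsLocalRing.eq_maximalIdeal (RingHom.ker_isMaximal_of_surjective _ hs)
  refine ⟨?_, hs, hk, ?_⟩
  · exact isAdicComplete_of_pow_eq_bot _ (c + 1) (hk ▸ ker_resQ_pow ht c)
  · rw [← ht.alg]
    rfl

end test

/-- `E₀` is a test ring. -/
lemma isTest_E0 : IsTest p n (LTRing p n) (LTRing.residue p n) := by
  refine ⟨isAdicComplete_E0 p n, residue_surjective p n, IsLocalRing.eq_maximalIdeal
    (RingHom.ker_isMaximal_of_surjective _ (residue_surjective p n)), ?_⟩
  ext x
  simp [LTRing.residue, MvPowerSeries.algebraMap_apply]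

section universal

variable {Γ : FormalGroup (GaloisField p n)} {H : FormalGroup (LTRing p n)}

section lift

variable (hH : IsUniversalDeformation p n Γ H)
  {B : Type} [CommRing B] [IsLocalRing B] [IsNoetherianRing B] [Algebra (WittVector p (GaloisField p n)) B] {r : B →+* GaloisField p n}
  (ht : IsTest p n B r)

include ht in
/-- An auxiliary lift of `θ₀⁻¹` and the associated conjugate law. -/
lemma exists_conj_data (G : FormalGroup B) {θ₀ : PowerSeries k} (h0 : IsFGHom Γ (G.map r) θ₀)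
    (hu : IsUnit (PowerSeries.coeff 1 θ₀)) :
    ∃ (f : PowerSeries B) (hfu : IsUnit (PowerSeries.coeff 1 f))
      (hfc : PowerSeries.constantCoeff f = 0),
      PowerSeries.map r f = sInv θ₀ hu ∧ (conjLaw G f hfu hfc).map r = Γ := by
  obtain ⟨f, hf, hf0⟩ := exists_lift_series r ht.surj (sInv θ₀ hu)
  have hfc : PowerSeries.constantCoeff f = 0 := by
    rw [← PowerSeries.coeff_zero_eq_constantCoeff_apply]
    apply hf0 0
    rw [PowerSeries.coeff_zero_eq_constantCoeff_apply]
    exact cc_sInv _ _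
  have hfu : IsUnit (PowerSeries.coeff 1 f) := ht.isUnit_of_map (by
    rw [← PowerSeries.coeff_map, hf]; exact isUnit_coeff_one_sInv _ _)
  refine ⟨f, hfu, hfc, hf, ?_⟩
  rw [map_conjLaw]
  have : IsFGHom (G.map r) Γ (PowerSeries.map r f) := by
    rw [hf]; exact h0.inv hu
  exact conjLaw_eq_of_hom _ _ _ this

include hH ht in
/-- Existence in the universal property for homomorphisms with a prescribed reduction. -/
theorem exists_hom_lift (G : FormalGroup B) {θ₀ : PowerSeries k} (h0 : IsFGHom Γ (G.map r) θ₀)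
    (hu : IsUnit (PowerSeries.coeff 1 θ₀)) :
    ∃ φ : E →ₐ[WW] B, r.comp φ.toRingHom = res ∧
      ∃ θ : PowerSeries B, IsFGHom (H.map φ.toRingHom) G θ ∧ PowerSeries.map r θ = θ₀ := by
  obtain ⟨f, hfu, hfc, hf, hC⟩ := exists_conj_data ht G h0 hu
  obtain ⟨φ, ⟨hφ, θ', hθ', hθ'r⟩, -⟩ := hH.2 B ht.complete r ht.surj ht.ker_eq ht.alg _ hC
  refine ⟨φ, hφ, cmp (sInv f hfu) θ', ((isFGHom_conjLaw G f hfu hfc).inv hfu).comp hθ', ?_⟩
  rw [map_cmp r hθ'.1, hθ'r, coeff_zero_cmp_X, map_sInv r hfu hfc]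
  have h2 : ∀ (a : PowerSeries k) (ha : IsUnit (PowerSeries.coeff 1 a)), a = sInv θ₀ hu →
      sInv a ha = θ₀ := by
    rintro a ha rfl
    exact (eq_sInv ha (cc_sInv _ _) h0.1 (cmp_sInv' _ h0.1 hu)).symm
  exact h2 _ _ hf

include hH ht in
/-- Uniqueness in the universal property for homomorphisms with a prescribed reduction. -/
theorem hom_lift_unique (G : FormalGroup B) {θ₀ : PowerSeries k} (h0 : IsFGHom Γ (G.map r) θ₀)
    (hu : IsUnit (PowerSeries.coeff 1 θ₀)) {φ₁ φ₂ : E →ₐ[WW] B}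
    (h1 : r.comp φ₁.toRingHom = res) (h2 : r.comp φ₂.toRingHom = res) {θ₁ θ₂ : PowerSeries B}
    (hθ₁ : IsFGHom (H.map φ₁.toRingHom) G θ₁) (hθ₂ : IsFGHom (H.map φ₂.toRingHom) G θ₂)
    (hr₁ : PowerSeries.map r θ₁ = θ₀) (hr₂ : PowerSeries.map r θ₂ = θ₀) : φ₁ = φ₂ := by
  obtain ⟨f, hfu, hfc, hf, hC⟩ := exists_conj_data ht G h0 hu
  obtain ⟨φ, -, huniq⟩ := hH.2 B ht.complete r ht.surj ht.ker_eq ht.alg _ hC
  have e : ∀ (θ : PowerSeries B), PowerSeries.constantCoeff θ = 0 → PowerSeries.map r θ = θ₀ →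
      PowerSeries.map r (cmp f θ) = PowerSeries.X := by
    intro θ hθ hr
    rw [map_cmp r hθ, hf, hr]
    exact cmp_sInv' _ h0.1 hu
  have e1 := huniq φ₁ ⟨h1, cmp f θ₁, (isFGHom_conjLaw G f hfu hfc).comp hθ₁, e _ hθ₁.1 hr₁⟩
  have e2 := huniq φ₂ ⟨h2, cmp f θ₂, (isFGHom_conjLaw G f hfu hfc).comp hθ₂, e _ hθ₂.1 hr₂⟩
  rw [e1, e2]

end lift

/-! ### Stabilizer maps -/

section stab

/-- The stabilizer map attached to `g` (meaningful for automorphisms `g`). -/
noncomputable def stabMap (H : FormalGroup E) (g : PowerSeries k) : E →ₐ[WW] E :=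
  Classical.epsilon fun φ => IsStabilizerMap p n H g φ

/-- The stabilizer maps are `W`-linear. -/
lemma stabMap_C (H : FormalGroup (LTRing p n)) (g : PowerSeries k) (a : WW) :
    stabMap H g (MvPowerSeries.C a) = MvPowerSeries.C a :=
  (stabMap H g).commutes a

/-- The homomorphism `H^φ_g → H` attached to `g`. -/
noncomputable def stabTheta (H : FormalGroup E) (g : PowerSeries k) : PowerSeries E :=
  Classical.epsilon fun θ => IsFGHom (H.map (stabMap H g).toRingHom) H θ ∧
    PowerSeries.map res θ = g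

variable (hH : IsUniversalDeformation p n Γ H)

include hH

theorem stabMap_exists {g : PowerSeries k} (hg : IsFGAut Γ g) :
    ∃ φ : E →ₐ[WW] E, IsStabilizerMap p n H g φ :=
  exists_hom_lift hH isTest_E0 H (by rw [hH.1]; exact hg.1) hg.2

theorem stabMap_unique {g : PowerSeries k} (hg : IsFGAut Γ g) {φ₁ φ₂ : E →ₐ[WW] E}
    (h1 : IsStabilizerMap p n H g φ₁) (h2 : IsStabilizerMap p n H g φ₂) : φ₁ = φ₂ := by
  obtain ⟨h1a, θ₁, h1b, h1c⟩ := h1
  obtain ⟨h2a, θ₂, h2b, h2c⟩ := h2
  exact hom_lift_unique hH isTest_E0 H (by rw [hH.1]; exact hg.1) hg.2 h1a h2a h1b h2b h1c h2c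

theorem stabMap_spec {g : PowerSeries k} (hg : IsFGAut Γ g) :
    IsStabilizerMap p n H g (stabMap H g) :=
  Classical.epsilon_spec (stabMap_exists hH hg)

theorem eq_stabMap {g : PowerSeries k} (hg : IsFGAut Γ g) {φ : E →ₐ[WW] E}
    (h : IsStabilizerMap p n H g φ) : φ = stabMap H g :=
  stabMap_unique hH hg h (stabMap_spec hH hg)

theorem stabTheta_spec {g : PowerSeries k} (hg : IsFGAut Γ g) :
    IsFGHom (H.map (stabMap H g).toRingHom) H (stabTheta H g) ∧
      PowerSeries.map res (stabTheta H g) = g :=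
  Classical.epsilon_spec (stabMap_spec hH hg).2

theorem res_stabMap {g : PowerSeries k} (hg : IsFGAut Γ g) :
    (res).comp (stabMap H g).toRingHom = res :=
  (stabMap_spec hH hg).1

theorem stabMap_X : stabMap H (PowerSeries.X : PowerSeries k) = AlgHom.id WW E := by
  symm
  apply eq_stabMap hH (isFGAut_X Γ)
  refine ⟨rfl, PowerSeries.X, ?_, PowerSeries.map_X _⟩
  have : (AlgHom.id WW E).toRingHom = RingHom.id E := rfl
  rw [this, fg_map_id]
  exact isFGHom_X H

theorem stabMap_comp {g g' : PowerSeries k} (hg : IsFGAut Γ g) (hg' : IsFGAut Γ g') :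
    stabMap H (cmp g' g) = (stabMap H g').comp (stabMap H g) := by
  symm
  apply eq_stabMap hH (hg'.comp hg)
  obtain ⟨ht, htr⟩ := stabTheta_spec hH hg
  obtain ⟨ht', htr'⟩ := stabTheta_spec hH hg'
  have hres := res_stabMap hH hg
  have hres' := res_stabMap hH hg'
  refine ⟨?_, cmp (stabTheta H g') (PowerSeries.map (stabMap H g').toRingHom (stabTheta H g)),
    ?_, ?_⟩
  · show (res).comp ((stabMap H g').toRingHom.comp (stabMap H g).toRingHom) = res
    rw [← RingHom.comp_assoc, hres', hres]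
  · have h1 := ht.map (stabMap H g').toRingHom
    rw [fg_map_map] at h1
    exact ht'.comp h1
  · rw [map_cmp _ (constantCoeff_map' _ ht.1), htr', pmap_map, hres', htr]

/-- `φ_g` is bijective. -/
theorem stabMap_bijective {g : PowerSeries k} (hg : IsFGAut Γ g) :
    Function.Bijective (stabMap H g) := by
  have hi := hg.inv
  have e1 : (stabMap H g).comp (stabMap H (sInv g hg.2)) = AlgHom.id WW E := by
    rw [← stabMap_comp hH hi hg, cmp_sInv g hg.1.1 hg.2]
    exact stabMap_X hH
  have e2 : (stabMap H (sInv g hg.2)).comp (stabMap H g) = AlgHom.id WW E := by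
    rw [← stabMap_comp hH hg hi, cmp_sInv' g hg.1.1 hg.2]
    exact stabMap_X hH
  constructor
  · intro a b hab
    have h1 := congrArg (stabMap H (sInv g hg.2)) hab
    have h2 := fun x => DFunLike.congr_fun e2 x
    simp only [AlgHom.comp_apply, AlgHom.id_apply] at h2
    rwa [h2, h2] at h1
  · intro b
    refine ⟨stabMap H (sInv g hg.2) b, ?_⟩
    have h2 := DFunLike.congr_fun e1 b
    simpa using h2

/-- the height ideals are stable. -/
theorem comap_heightIdeal [H.IsComm] {g : PowerSeries k} (hg : IsFGAut Γ g) {φ : E →ₐ[WW] E}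
    (hφ : IsStabilizerMap p n H g φ) (h : ℕ) :
    Ideal.comap φ.toRingHom (heightIdeal p n H h) = heightIdeal p n H h := by
  obtain rfl := eq_stabMap hH hg hφ
  obtain ⟨ht, htr⟩ := stabTheta_spec hH hg
  have hu : IsUnit (PowerSeries.coeff 1 (stabTheta H g)) := isTest_E0.isUnit_of_map (by
    rw [← PowerSeries.coeff_map, htr]; exact hg.2)
  have h1 := hIdeal_eq_of_iso (p := p) ht hu h
  rw [hIdeal_map] at h1
  rw [heightIdeal_eq_hIdeal]
  conv_lhs => rw [← h1]
  exact Ideal.comap_map_of_bijective (stabMap H g).toRingHom (stabMap_bijective hH hg)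

/-- the height ideals are stable. -/
theorem isStableIdeal_heightIdeal [H.IsComm] (M h : ℕ) :
    IsStableIdeal p n Γ H M (heightIdeal p n H h) :=
  fun _ _ hg _ hφ => comap_heightIdeal hH hg hφ h

end stab

/-! ### Deep automorphisms -/

section deep

lemma iterateFrobenius_galois (hn : 1 ≤ n) (c : ℕ) :
    iterateFrobenius k p (n * c) = RingHom.id k := by
  ext x
  rw [iterateFrobenius_def, pow_mul, RingHom.id_apply]
  have : Fintype k := Fintype.ofFinite k
  have hc : Fintype.card k = p ^ n := by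
    rw [← Nat.card_eq_fintype_card]
    exact GaloisField.card p n (by omega)
  rw [← hc]
  exact FiniteField.pow_card_pow c x

lemma mulSeries_pow_of (hΓ : mulSeries Γ p = PowerSeries.X ^ (p ^ n)) (c : ℕ) :
    mulSeries Γ (p ^ c) = PowerSeries.X ^ (p ^ (n * c)) := by
  induction c with
  | zero => simp
  | succ c ih =>
    have h0 : PowerSeries.constantCoeff (mulSeries Γ p) = 0 := constantCoeff_mulSeries _ _
    rw [pow_succ, mulSeries_mul, ih, cmp_X_pow_left _ h0, hΓ, ← pow_mul, ← pow_add, mul_add, mul_one,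
      add_comm]
 
variable (hH : IsUniversalDeformation p n Γ H)

include hH

/-- Deep automorphisms act trivially modulo `𝔪^c`, and their `θ` is `X` modulo `(𝔪^c, X^N)`. -/
theorem deep_aux [H.IsComm] (hn : 1 ≤ n) (hΓ : mulSeries Γ p = PowerSeries.X ^ (p ^ n)) (c N : ℕ) :
    ∃ M : ℕ, ∀ (g : PowerSeries k) (φ : E →ₐ[WW] E) (θ : PowerSeries E), IsFGAut Γ g → CongX M g →
      (res).comp φ.toRingHom = res → IsFGHom (H.map φ.toRingHom) H θ → PowerSeries.map res θ = g →
      (∀ a, φ a - a ∈ (IsLocalRing.maximalIdeal E) ^ c) ∧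
        (∀ i, i < N → PowerSeries.coeff i θ - PowerSeries.coeff i (PowerSeries.X : PowerSeries E)
          ∈ (IsLocalRing.maximalIdeal E) ^ c) := by
  rcases c with _ | c
  · exact ⟨0, fun _ _ _ _ _ _ _ _ => ⟨fun _ => by simp, fun _ _ => by simp⟩⟩
  refine ⟨p ^ (n * (c + 1)) * (N + 1), ?_⟩
  intro g φ θ hg hgM hφ hθ hθr
  set m := IsLocalRing.maximalIdeal E with hm
  set π : E →ₐ[WW] (E ⧸ m ^ (c + 1)) := Ideal.Quotient.mkₐ WW (m ^ (c + 1)) with hπ
  have ht' : IsTest p n (E ⧸ m ^ (c + 1)) (resQ (isTest_E0 (p := p) (n := n)) c) := (isTest_E0 (p := p) (n := n)).quot c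
  have hπr : (resQ (isTest_E0 (p := p) (n := n)) c).comp π.toRingHom = res := resQ_comp (isTest_E0 (p := p) (n := n)) c
  set G : FormalGroup (E ⧸ m ^ (c + 1)) := H.map π.toRingHom with hGdef
  have hG : G.map (resQ (isTest_E0 (p := p) (n := n)) c) = Γ := by
    rw [hGdef, fg_map_map, hπr, hH.1]
  have hker := ker_resQ_pow (isTest_E0 (p := p) (n := n)) c
  have hpm : (p : E ⧸ m ^ (c + 1)) ∈ RingHom.ker (resQ (isTest_E0 (p := p) (n := n)) c) := by
    rw [RingHom.mem_ker, map_natCast]
    exact CharP.cast_eq_zero _ _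
  obtain ⟨g', hg'hom, hg'r, hg'N⟩ := exists_drinfeld_lift (p := p) (resQ (isTest_E0 (p := p) (n := n)) c) ht'.surj G (c + 1)
    (n * (c + 1)) N (iterateFrobenius_galois hn _) (by rw [hG]; exact mulSeries_pow_of hΓ _)
    hker hpm (g := g) (by rw [hG]; exact hg.1) hgM
  have hu' : IsUnit (PowerSeries.coeff 1 g') := ht'.isUnit_of_map (by
    rw [← PowerSeries.coeff_map, hg'r]; exact hg.2)
  have hθ' : IsFGHom (H.map (π.comp φ).toRingHom) G (PowerSeries.map π.toRingHom θ) := by
    have := hθ.map π.toRingHom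
    rwa [fg_map_map] at this
  have hθ'r : PowerSeries.map (resQ (isTest_E0 (p := p) (n := n)) c) (PowerSeries.map π.toRingHom θ) = g := by
    rw [pmap_map, hπr, hθr]
  have huniq : π.comp φ = π := by
    refine hom_lift_unique hH ht' G (by rw [hG]; exact hg.1) hg.2 ?_ hπr hθ' hg'hom hθ'r hg'r
    show (resQ (isTest_E0 (p := p) (n := n)) c).comp (π.toRingHom.comp φ.toRingHom) = res
    rw [← RingHom.comp_assoc, hπr, hφ]
  constructor
  · intro a
    have := DFunLike.congr_fun huniq a
    exact Ideal.Quotient.eq.1 this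
  · -- rigidity
    have hringeq : (π.comp φ).toRingHom = π.toRingHom := by rw [huniq]
    rw [hringeq] at hθ'
    have hD := (hg'hom.inv hu').comp hθ'
    have hrig := rigidity (resQ (isTest_E0 (p := p) (n := n)) c) (G := G) (p := p) (q := p ^ n)
      (Nat.one_le_pow _ _ (Nat.pos_of_ne_zero (prime_ne_zero p))) hpm
      (by rw [← mulSeries_map, hG, hΓ])
      (fun x hx => by simpa [hker] using hx (c + 1)) hD (by
        rw [map_cmp _ hθ'.1, hθ'r, map_sInv _ hu' hg'hom.1]
        have h2 : ∀ (a : PowerSeries k) (ha : IsUnit (PowerSeries.coeff 1 a)), a = g →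
            cmp (sInv a ha) g = PowerSeries.X := by
          rintro a ha rfl
          exact cmp_sInv' _ hg.1.1 ha
        exact h2 _ _ hg'r)
    have hfin : PowerSeries.map π.toRingHom θ = g' := by
      have e1 := congrArg (cmp g') hrig
      rw [← cmp_assoc (cc_sInv g' hu') hθ'.1, cmp_sInv g' hg'hom.1 hu', cmp_X_left hθ'.1,
        coeff_zero_cmp_X] at e1
      exact e1
    intro i hi
    have h3 : π (PowerSeries.coeff i θ) = π (PowerSeries.coeff i (PowerSeries.X : PowerSeries E)) := by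
      have h4 : π.toRingHom (PowerSeries.coeff i θ) = PowerSeries.coeff i g' := by
        rw [← hfin, PowerSeries.coeff_map]
      have h5 := hg'N i hi
      have h6 : π (PowerSeries.coeff i θ) = π.toRingHom (PowerSeries.coeff i θ) := rfl
      rw [h6, h4, h5, PowerSeries.coeff_X, PowerSeries.coeff_X]
      split_ifs <;> simp
    exact Ideal.Quotient.eq.1 h3

/-- The action of the automorphisms of `Γ` on a universal deformation. -/
noncomputable def univAction [H.IsComm] (hn : 1 ≤ n) (hΓ : mulSeries Γ p = PowerSeries.X ^ (p ^ n)) :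
    DeepAction res (IsLocalRing.maximalIdeal E) Γ H where
  φ g := (stabMap H g).toRingHom
  θ g := stabTheta H g
  hom g hg := (stabTheta_spec hH hg).1
  red g hg := (stabTheta_spec hH hg).2
  res_φ g hg := res_stabMap hH hg
  comp g g' hg hg' := by
    rw [stabMap_comp hH hg hg']
    rfl
  one := by
    rw [stabMap_X hH]
    rfl
  deep c N := by
    obtain ⟨M, hM⟩ := deep_aux hH hn hΓ c N
    exact ⟨M, fun g hg hgM => hM g _ _ hg hgM (res_stabMap hH hg)
      (stabTheta_spec hH hg).1 (stabTheta_spec hH hg).2⟩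

/-- `univAction` is `W`-linear. -/
lemma univAction_C [H.IsComm] (hn : 1 ≤ n) (hΓ : mulSeries Γ p = PowerSeries.X ^ (p ^ n))
    (g : PowerSeries k) (a : WW) :
    (univAction hH hn hΓ).φ g (MvPowerSeries.C a) = MvPowerSeries.C a :=
  stabMap_C H g a

end deep

/-! ### Transport of universality -/

section transport

variable (hH : IsUniversalDeformation p n Γ H)

include hH in
/-- If `H` is universal, `φ₀` is an automorphism of `E₀` compatible with the residue map and
`θ₀ : H^φ₀ → H₀` is an isomorphism of laws, then `H₀` is universal (for its reduction). -/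
theorem universal_transport {H₀ : FormalGroup (LTRing p n)} {Γ₀ : FormalGroup (GaloisField p n)}
    (hH₀ : H₀.map (res) = Γ₀) (φ₀ : E ≃ₐ[WW] E)
    (hφ₀ : (res).comp (φ₀ : E →ₐ[WW] E).toRingHom = res) {θ₀ : PowerSeries E}
    (hθ₀ : IsFGHom (H.map (φ₀ : E →ₐ[WW] E).toRingHom) H₀ θ₀)
    (hu : IsUnit (PowerSeries.coeff 1 θ₀)) : IsUniversalDeformation p n Γ₀ H₀ := by
  refine ⟨hH₀, ?_⟩
  intro B _ _ _ _ hcomplete r hr hker halg G hG
  have ht : IsTest p n B r := ⟨hcomplete, hr, hker, halg⟩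
  have hred : IsFGHom Γ (G.map r) (PowerSeries.map (res) θ₀) := by
    have := hθ₀.map (res)
    rw [fg_map_map, hφ₀, hH.1, hH₀] at this
    rwa [hG]
  have hured : IsUnit (PowerSeries.coeff 1 (PowerSeries.map (res) θ₀)) :=
    isUnit_coeff_one_map _ hu
  obtain ⟨φ, hφ, θ, hθ, hθr⟩ := exists_hom_lift hH ht G hred hured
  -- `ψ = φ ∘ φ₀⁻¹`
  set ψ : E →ₐ[WW] B := φ.comp (φ₀.symm : E →ₐ[WW] E) with hψ
  have hψφ₀ : ψ.comp (φ₀ : E →ₐ[WW] E) = φ := by
    ext x
    simp [hψ]
  have hresinv : (res).comp (φ₀.symm : E →ₐ[WW] E).toRingHom = res := by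
    ext x : 1
    have := DFunLike.congr_fun hφ₀ (φ₀.symm x)
    simp only [RingHom.comp_apply] at this
    have h2 : (φ₀ : E →ₐ[WW] E).toRingHom (φ₀.symm x) = x := by simp
    rw [h2] at this
    exact this.symm
  have hrψ : r.comp ψ.toRingHom = res := by
    have : ψ.toRingHom = φ.toRingHom.comp (φ₀.symm : E →ₐ[WW] E).toRingHom := rfl
    rw [this, ← RingHom.comp_assoc, hφ, hresinv]
  have hmapeq : ∀ ψ' : E →ₐ[WW] B, (H.map (φ₀ : E →ₐ[WW] E).toRingHom).map ψ'.toRingHom =
      H.map (ψ'.comp (φ₀ : E →ₐ[WW] E)).toRingHom := fun ψ' => by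
    rw [fg_map_map]; rfl
  have hrr : ∀ ψ' : E →ₐ[WW] B, r.comp ψ'.toRingHom = res →
      PowerSeries.map r (PowerSeries.map ψ'.toRingHom θ₀) = PowerSeries.map (res) θ₀ := by
    intro ψ' h
    rw [pmap_map, h]
  refine ⟨ψ, ⟨hrψ, ?_⟩, ?_⟩
  · -- existence
    have hs := hθ₀.map ψ.toRingHom
    rw [hmapeq, hψφ₀] at hs
    have hus : IsUnit (PowerSeries.coeff 1 (PowerSeries.map ψ.toRingHom θ₀)) :=
      isUnit_coeff_one_map _ hu
    refine ⟨cmp θ (sInv _ hus), hθ.comp (hs.inv hus), ?_⟩
    rw [map_cmp _ (cc_sInv _ hus), hθr, map_sInv _ hus hs.1]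
    have h2 : ∀ (a : PowerSeries (GaloisField p n)) (ha : IsUnit (PowerSeries.coeff 1 a)),
        a = PowerSeries.map (res) θ₀ → cmp (PowerSeries.map (res) θ₀) (sInv a ha) = PowerSeries.X := by
      rintro a ha rfl
      exact cmp_sInv _ hred.1 ha
    exact h2 _ _ (hrr ψ hrψ)
  · -- uniqueness
    rintro ψ' ⟨hψ'r, θ', hθ', hθ'r⟩
    have hs := hθ₀.map ψ'.toRingHom
    rw [hmapeq] at hs
    have h1 : ψ'.comp (φ₀ : E →ₐ[WW] E) = φ := by
      refine hom_lift_unique hH ht G hred hured (φ₁ := ψ'.comp (φ₀ : E →ₐ[WW] E)) ?_ hφ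
        (hθ'.comp hs) hθ ?_ hθr
      · show r.comp (ψ'.toRingHom.comp (φ₀ : E →ₐ[WW] E).toRingHom) = res
        rw [← RingHom.comp_assoc, hψ'r, hφ₀]
      · rw [map_cmp _ hs.1, hθ'r, hrr ψ' hψ'r]
        exact cmp_X_left hred.1
    rw [← hψφ₀] at h1
    ext x : 1
    have := DFunLike.congr_fun h1 (φ₀.symm x)
    simpa using this

include hH in
/-- The case of the identity `φ₀`: conjugating a universal deformation gives a universal one. -/
theorem universal_of_iso {H₀ : FormalGroup (LTRing p n)} {Γ₀ : FormalGroup (GaloisField p n)}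
    (hH₀ : H₀.map (res) = Γ₀) {θ₀ : PowerSeries E} (hθ₀ : IsFGHom H H₀ θ₀)
    (hu : IsUnit (PowerSeries.coeff 1 θ₀)) : IsUniversalDeformation p n Γ₀ H₀ := by
  refine universal_transport hH hH₀ AlgEquiv.refl rfl (θ₀ := θ₀) ?_ hu
  have : ((AlgEquiv.refl : E ≃ₐ[WW] E) : E →ₐ[WW] E).toRingHom = RingHom.id E := rfl
  rw [this, fg_map_id]
  exact hθ₀

end transport

end universal

end Crest.Agent.LT
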