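/-
§0 of the blueprint: from the classification of stable primes to the classification of stable
radical ideals.
-/
import Crest.Agent.Lib.LT.UnivDeep

set_option autoImplicit false

namespace Crest.Agent.LT

open Crest.LubinTate

section krull

variable {A : Type*} [CommRing A] [IsLocalRing A] [IsNoetherianRing A]

/-- Krull: ideals of a Noetherian local ring are closed. -/
lemma exists_notMem_sup_pow (Q : Ideal A) (hQ : Q ≠ ⊤) {x : A} (hx : x ∉ Q) :
    ∃ c : ℕ, x ∉ Q ⊔ (IsLocalRing.maximalIdeal A) ^ c := by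
  by_contra hcon
  push Not at hcon
  have : Nontrivial (A ⧸ Q) := Ideal.Quotient.nontrivial_iff.2 hQ
  have : IsLocalRing (A ⧸ Q) :=
    IsLocalRing.of_surjective' (Ideal.Quotient.mk Q) Ideal.Quotient.mk_surjective
  set I := (IsLocalRing.maximalIdeal A).map (Ideal.Quotient.mk Q) with hI
  have hIne : I ≠ ⊤ := by
    have hle : IsLocalRing.maximalIdeal A ≤ I.comap (Ideal.Quotient.mk Q) :=
      Ideal.le_comap_map
    intro h
    have hQle : Q ≤ IsLocalRing.maximalIdeal A := IsLocalRing.le_maximalIdeal hQ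
    have : I ≤ (IsLocalRing.maximalIdeal A).map (Ideal.Quotient.mk Q) := le_rfl
    have h1 : (1 : A ⧸ Q) ∈ I := by rw [h]; trivial
    rw [hI, Ideal.mem_map_iff_of_surjective _ Ideal.Quotient.mk_surjective] at h1
    obtain ⟨y, hy, hy1⟩ := h1
    have h2 := Ideal.Quotient.eq.1 (hy1.trans (map_one _).symm)
    have h3 := (IsLocalRing.maximalIdeal A).sub_mem hy (hQle h2)
    simp only [sub_sub_cancel] at h3
    exact (IsLocalRing.maximalIdeal.isMaximal A).ne_top ((Ideal.eq_top_iff_one _).2 h3)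
  have h0 := Ideal.iInf_pow_eq_bot_of_isLocalRing I hIne
  have hmem : Ideal.Quotient.mk Q x ∈ (⨅ i : ℕ, I ^ i) := by
    rw [Ideal.mem_iInf]
    intro c
    obtain ⟨a, ha, b, hb, hab⟩ := Submodule.mem_sup.1 (hcon c)
    rw [← hab, map_add, Ideal.Quotient.eq_zero_iff_mem.2 ha, zero_add, hI, ← Ideal.map_pow]
    exact Ideal.mem_map_of_mem _ hb
  rw [h0, Ideal.mem_bot, Ideal.Quotient.eq_zero_iff_mem] at hmem
  exact hx hmem

/-- Separation of finitely many incomparable ideals. -/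
lemma exists_separating (S : Set (Ideal A)) (hS : S.Finite)
    (hsep : ∀ P ∈ S, ∀ Q ∈ S, P ≠ Q → ¬ P ≤ Q) (htop : ∀ Q ∈ S, Q ≠ ⊤) :
    ∃ c : ℕ, ∀ P ∈ S, ∀ Q ∈ S, P ≠ Q → ¬ P ≤ Q ⊔ (IsLocalRing.maximalIdeal A) ^ c := by
  classical
  have h1 : ∀ P ∈ S, ∀ Q ∈ S, P ≠ Q → ∃ c : ℕ, ¬ P ≤ Q ⊔ (IsLocalRing.maximalIdeal A) ^ c := by
    intro P hP Q hQ hne
    obtain ⟨x, hxP, hxQ⟩ := SetLike.not_le_iff_exists.1 (hsep P hP Q hQ hne)
    obtain ⟨c, hc⟩ := exists_notMem_sup_pow Q (htop Q hQ) hxQ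
    exact ⟨c, fun h => hc (h hxP)⟩
  choose! d hd using h1
  refine ⟨hS.toFinset.sup fun P => hS.toFinset.sup fun Q => d P Q, ?_⟩
  intro P hP Q hQ hne hle
  refine hd P hP Q hQ hne (hle.trans (sup_le_sup_left (Ideal.pow_le_pow_right ?_) _))
  exact (Finset.le_sup (f := fun Q => d P Q) (hS.mem_toFinset.2 hQ)).trans
    (Finset.le_sup (f := fun P => hS.toFinset.sup fun Q => d P Q) (hS.mem_toFinset.2 hP))

end krull

variable {p : ℕ} [Fact p.Prime] {n : ℕ}

local notation "k" => GaloisField p n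
local notation "WW" => WittVector p (GaloisField p n)
local notation "E" => LTRing p n

variable {Γ : FormalGroup (GaloisField p n)} {H : FormalGroup (LTRing p n)}

lemma heightIdeal_mono (H : FormalGroup (LTRing p n)) : Monotone (heightIdeal p n H) := by
  intro a b hab
  rw [heightIdeal_eq_hIdeal, heightIdeal_eq_hIdeal]
  exact hIdeal_mono p H hab

/-- §0: stable radical ideals, from the classification of stable primes. -/
theorem radical_classification [H.IsComm] (hH : IsUniversalDeformation p n Γ H) (hn : 1 ≤ n)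
    (hΓ : mulSeries Γ p = PowerSeries.X ^ (p ^ n))
    (hprime : ∀ M : ℕ, 1 ≤ M → ∀ P : Ideal E, P.IsPrime → IsStableIdeal p n Γ H M P →
      ∃ h : ℕ, h ≤ n ∧ P = heightIdeal p n H h)
    (hIprime : ∀ h : ℕ, h ≤ n → (heightIdeal p n H h).IsPrime)
    {M : ℕ} (hM : 1 ≤ M) (J : Ideal E) :
    (J.IsRadical ∧ IsStableIdeal p n Γ H M J) ↔
      (∃ h : ℕ, h ≤ n ∧ J = heightIdeal p n H h) ∨ J = ⊤ := by
  constructor
  · rintro ⟨hJr, hJs⟩
    by_cases hJt : J = ⊤
    · exact Or.inr hJt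
    left
    set S := J.minimalPrimes with hSdef
    have hS : S.Finite := Ideal.finite_minimalPrimes_of_isNoetherianRing _ J
    obtain ⟨⟨P₀, hP₀⟩⟩ := Ideal.nonempty_minimalPrimes hJt
    have hSJ : sInf S = J := by
      rw [hSdef, Ideal.sInf_minimalPrimes]
      exact hJr.radical
    have hmin : ∀ P ∈ S, ∀ Q ∈ S, P ≤ Q → P = Q := fun P hP Q hQ hle =>
      le_antisymm hle (hQ.2 hP.1 hle)
    obtain ⟨c, hc⟩ := exists_separating S hS
      (fun P hP Q hQ hne hle => hne (hmin P hP Q hQ hle))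
      (fun Q hQ => hQ.1.1.ne_top)
    obtain ⟨M₁, hM₁⟩ := deep_aux hH hn hΓ c 0
    set M' := max M M₁ with hM'
    have hstab : ∀ P ∈ S, IsStableIdeal p n Γ H M' P := by
      intro P hP g φ hg hgM hφ
      obtain rfl := eq_stabMap hH hg hφ
      have hbij := stabMap_bijective hH hg
      have hJ' := hJs g _ hg (fun i hi => hgM i (lt_of_lt_of_le hi (le_max_left _ _))) hφ
      have hQS : Ideal.comap (stabMap H g).toRingHom P ∈ S := by
        have := Ideal.minimalPrimes_comap_of_surjective (f := (stabMap H g).toRingHom) hbij.2 hP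
        rwa [hJ'] at this
      by_contra hne
      refine hc _ hQS P hP hne fun x hx => ?_
      have h1 : stabMap H g x ∈ P := hx
      have h2 := (hM₁ g _ _ hg (fun i hi => hgM i (lt_of_lt_of_le hi (le_max_right _ _)))
        (res_stabMap hH hg) (stabTheta_spec hH hg).1 (stabTheta_spec hH hg).2).1 x
      have h3 : x = stabMap H g x + -(stabMap H g x - x) := by ring
      rw [h3]
      exact Submodule.add_mem_sup h1 (neg_mem h2)
    have hM'1 : 1 ≤ M' := le_trans hM (le_max_left _ _)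
    have hh : ∀ P ∈ S, ∃ h : ℕ, h ≤ n ∧ P = heightIdeal p n H h := fun P hP =>
      hprime M' hM'1 P hP.1.1 (hstab P hP)
    obtain ⟨h₀, hh₀, hP₀eq⟩ := hh P₀ hP₀
    have hall : ∀ P ∈ S, P = P₀ := by
      intro P hP
      obtain ⟨h, -, hPeq⟩ := hh P hP
      rcases le_total h h₀ with hle | hle
      · refine hmin P hP P₀ hP₀ ?_
        rw [hPeq, hP₀eq]
        exact heightIdeal_mono H hle
      · refine (hmin P₀ hP₀ P hP ?_).symm
        rw [hPeq, hP₀eq]
        exact heightIdeal_mono H hle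
    refine ⟨h₀, hh₀, ?_⟩
    rw [← hP₀eq, ← hSJ]
    apply le_antisymm
    · exact sInf_le hP₀
    · exact le_sInf fun P hP => (hall P hP).ge
  · rintro (⟨h, hh, rfl⟩ | rfl)
    · exact ⟨(hIprime h hh).isRadical, isStableIdeal_heightIdeal hH M h⟩
    · exact ⟨fun _ _ => trivial, fun _ _ _ _ _ => Ideal.comap_top⟩

/-- §0: the converse for primes is the stability of the `I_h`. -/
theorem prime_classification [H.IsComm] (hH : IsUniversalDeformation p n Γ H)
    (hprime : ∀ M : ℕ, 1 ≤ M → ∀ P : Ideal E, P.IsPrime → IsStableIdeal p n Γ H M P →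
      ∃ h : ℕ, h ≤ n ∧ P = heightIdeal p n H h)
    (hIprime : ∀ h : ℕ, h ≤ n → (heightIdeal p n H h).IsPrime)
    {M : ℕ} (hM : 1 ≤ M) (P : Ideal E) :
    (P.IsPrime ∧ IsStableIdeal p n Γ H M P) ↔ ∃ h : ℕ, h ≤ n ∧ P = heightIdeal p n H h := by
  constructor
  · rintro ⟨h1, h2⟩
    exact hprime M hM P h1 h2
  · rintro ⟨h, hh, rfl⟩
    exact ⟨hIprime h hh, isStableIdeal_heightIdeal hH M h⟩

end Crest.Agent.LT
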